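import Vale.Agent.P181.TL.Defs
import Vale.Agent.P181.PL.Defs

set_option autoImplicit false

/-!
# P181, TR: the trace trick, `b ≥ C a`: the literals

`k` are the sizes of the letters `σ`, `G` the group of the permutations `e` with `k ∘ e = k`.
`dim KK(mu, k - c) ≤ |G| · dim PK(mu + dl, k)` as soon as the weight `dl` has highest weight
polynomials of column degrees `c` which separate the identity from the rest of `G` (`Sep`).
-/

open MvPolynomial

namespace Vale.Agent.P181.TRT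

open Vale.Agent.P181.T4 (HW ex)
open Vale.Agent.P181.H280 (plethMult)
open Vale.Agent.P181.H463 (gt)
open Vale.Agent.P181.SZ
open Vale.Agent.P181.TL (KK)
open Vale.Agent.P181.PL (dn)

/-- The weight of a column of length `r`. -/
def col (m r : ℕ) : Fin m → ℕ := fun i => if (i : ℕ) < r then 1 else 0

/-- The columns are permuted by `e`. -/
noncomputable def ren {m : ℕ} {σ : Type} (e : Equiv.Perm σ) (f : MvPolynomial (Fin m × σ) ℂ) :
    MvPolynomial (Fin m × σ) ℂ := rename (fun p : Fin m × σ => (p.1, e p.2)) f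

/-- The highest weight polynomials of weight `dl` and column degrees `c` separate the identity
from the `e ∈ E` which preserve `k`. -/
def Sep (m : ℕ) {σ : Type} [Fintype σ] (k : σ → ℕ) (dl : Fin m → ℕ) (c : σ → ℕ)
    (E : Set (Equiv.Perm σ)) : Prop :=
  ∃ (I : Type) (_ : Fintype I) (u v : I → MvPolynomial (Fin m × σ) ℂ),
    (∀ i, u i ∈ KK m σ c dl) ∧
    (∀ e : Equiv.Perm σ, (∀ j, k (e j) = k j) → e ∈ E → ∑ i, v i * ren e (u i) = 0) ∧
    ∑ i, v i * u i ≠ 0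

/-- **(TR1)** the trace trick. -/
def TraceT : Prop := ∀ (m : ℕ) (σ : Type) [Fintype σ] (k k' c : σ → ℕ) (mu dl : Fin m → ℕ),
  (∀ j, k j = k' j + c j) → Sep m k dl c {e | e ≠ 1} →
  Module.finrank ℂ (KK m σ k' mu) ≤
    Nat.card {e : Equiv.Perm σ // ∀ j, k (e j) = k j} *
      Module.finrank ℂ (PK m σ k (mu + dl))

/-- **(TR2)** products (of families; the empty one gives `Sep m k 0 0 ∅`). -/
def SepProd : Prop := ∀ (m : ℕ) (σ : Type) [Fintype σ] (k : σ → ℕ) (ι : Type) [Fintype ι]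
  (dl : ι → Fin m → ℕ) (c : ι → σ → ℕ) (E : ι → Set (Equiv.Perm σ)),
  (∀ f, Sep m k (dl f) (c f) (E f)) → Sep m k (∑ f, dl f) (∑ f, c f) (⋃ f, E f)

open scoped Classical in
/-- **(TR3)** a block of two columns kills the `e` with `e(J) ∩ I ≠ ∅`. -/
def BlockT : Prop := ∀ (m s r r' : ℕ) (σ : Type) [Fintype σ] (k : σ → ℕ)
  (J I B P P' : Finset σ), J.card = s → I.card = s → B.card = 2 * s → P.card + 2 * s = r →
  P'.card + s = r' → r ≤ m → r' ≤ m →
  Disjoint J I → Disjoint J P → Disjoint I P → Disjoint B P → Disjoint B P' →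
  (∀ b ∈ B, ∀ j, k j = k b → j = b) → (∀ p ∈ P, ∀ j, k j = k p → j ∈ P) →
  (∀ p ∈ P', ∀ j, k j = k p → j ∈ P') →
  Sep m k (col m r + col m r')
    (fun j => (if j ∈ J then 1 else 0) + (if j ∈ B then 1 else 0) + (if j ∈ P then 1 else 0) +
      if j ∈ P' then 1 else 0) {e | ∃ j ∈ J, e j ∈ I}

/-- The ordered pairs of different letters of the same size. -/
def Prs {σ : Type} (k : σ → ℕ) : Type := {p : σ × σ // p.1 ≠ p.2 ∧ k p.1 = k p.2}

open scoped Classical in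
/-- **(TR4)** short columns: one block for every pair of letters of the same size, `G` groups of
`ρ + 1` letters fixed by the group, each for at most `h` blocks. -/
def ShortT : Prop := ∀ (m M h ρ G : ℕ) (σ : Type) [Fintype σ] (k : σ → ℕ)
  (ref : Fin G × Fin (ρ + 1) → σ) [Fintype (Prs k)] (len len' : Prs k → ℕ),
  (∀ j, (Finset.univ.filter fun i => k i = k j).card ≤ M) →
  Function.Injective ref → (∀ x j, k j = k (ref x) → j = ref x) →
  (∀ p, 2 ≤ len p ∧ len p ≤ ρ ∧ len p ≤ m) → (∀ p, 2 ≤ len' p ∧ len' p ≤ ρ ∧ len' p ≤ m) →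
  Nat.card (Prs k) ≤ G * h →
  ∃ c : σ → ℕ, (∀ j, c j ≤ M + 2 * h) ∧
    Sep m k (∑ p, (col m (len p) + col m (len' p))) c {e | e ≠ 1}

/-- **(TR5)** long columns: the letters with a multiplicity are `κ * y` full blocks of `M`
letters, each size inside one block; one block of columns for two positions in a superblock. -/
def LongT : Prop := ∀ (m κ y M : ℕ) (σ : Type) [Fintype σ] (k : σ → ℕ)
  (mn : Fin κ × Fin y × Fin M → σ) (ref : Fin (2 * y + M) → σ)
  (len len' : Fin κ × Fin M × Fin M → ℕ), 0 < M →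
  Function.Injective mn → Function.Injective ref → (∀ x z, ref x ≠ mn z) →
  (∀ x j, k j = k (ref x) → j = ref x) →
  (∀ x j, k j = k (mn x) → ∃ p, j = mn (x.1, x.2.1, p)) →
  (∀ i j, i ≠ j → k i = k j → i ∈ Set.range mn) →
  (∀ f, 2 * y ≤ len f ∧ len f ≤ m) → (∀ f, 2 * y ≤ len' f ∧ len' f ≤ m) →
  m ≤ (κ - 1) * (y * M) →
  ∃ c : σ → ℕ, (∀ j, c j ≤ 4 * (κ * (M * M))) ∧
    Sep m k (∑ f, (col m (len f) + col m (len' f))) c {e | e ≠ 1}

/-- **(TR6)** a content with all entries `≤ s` is better than a content with all entries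
`≥ s`. -/
def MajT : Prop := ∀ (m s : ℕ) (α β : Type) [Fintype α] [Fintype β] (c : α → ℕ) (u : β → ℕ)
  (mu : Fin m → ℕ), (∀ i, s ≤ c i) → (∀ j, u j ≤ s) → ∑ i, c i = ∑ j, u j →
  Module.finrank ℂ (KK m α c mu) ≤ Module.finrank ℂ (KK m β u mu)

/-- **(TR7)** the tableaux give highest weight polynomials. -/
def GtHW : Prop := ∀ (m N : ℕ) (mu : Fin m → ℕ), Antitone mu →
  gt m N mu ≤ Module.finrank ℂ (HW m (Fin N) mu)

/-- **(TR8)** `gt` is at most the product over the rows. -/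
def GtRow : Prop := ∀ (m N : ℕ) (mu : Fin m → ℕ), gt m N mu ≤ ∏ i, (N + mu i).choose (mu i)

/-- `F` columns of `mu`, every `T`-th one, from the column `x` on. -/
def cut {m : ℕ} (x T F : ℕ) (mu : Fin m → ℕ) : Fin m → ℕ := fun i => min F ((mu i - x) / T)

/-- **(TR9)** these columns. -/
def CutT : Prop := ∀ (m x T F lo hi : ℕ) (mu : Fin m → ℕ), Antitone mu → 0 < T → lo ≤ m →
  (∀ i : Fin m, (i : ℕ) < lo → x + T * F ≤ mu i) → (∀ i : Fin m, hi ≤ (i : ℕ) → mu i < x + T) →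
  (∀ i, T * cut x T F mu i ≤ mu i) ∧ Antitone (cut x T F mu) ∧
    (Antitone fun i => mu i - cut x T F mu i) ∧
    ∀ (ι : Type) [Fintype ι], Fintype.card ι = F → ∃ len : ι → ℕ,
      (∀ f, lo ≤ len f ∧ len f ≤ hi ∧ len f ≤ m) ∧ ∑ f, col m (len f) = cut x T F mu

/-- **(TR10)** the sizes of the letters. -/
def LetT : Prop := ∀ (κ y M R s w : ℕ), 0 < κ → 0 < y → 0 < M → 64 ≤ s → 16 * (κ * y) ≤ s →
  16 * R ≤ s → 24 * (s * (κ * y * M)) + 32 * (R * s) ≤ 32 * w →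
  32 * w ≤ 25 * (s * (κ * y * M)) →
  ∃ k : (Fin κ × Fin y × Fin M) ⊕ Fin R → ℕ, ∑ j, k j = w ∧ (∀ j, s ≤ 2 * k j ∧ k j ≤ s) ∧
    (∀ x j, k j = k (Sum.inr x) → j = Sum.inr x) ∧
    (∀ x j, k j = k (Sum.inl x) → ∃ p, j = Sum.inl (x.1, x.2.1, p))

/-- The hypotheses, `X` is a power of `1 + log a`; `w = dn lam 1`. -/
def HyT (a b m X : ℕ) (lam : Fin (m + 1) → ℕ) : Prop :=
  Antitone lam ∧ ∑ i, lam i = a * b ∧ m + 1 ≤ a ∧ 1000 * a ≤ b ∧ b ≤ X * a ∧
    32 * dn lam 1 ≤ a * b ∧ a ^ 2 ≤ X * dn lam 1 ∧ dn lam 1 ≤ X * dn lam 2 ∧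
    X ^ 100 ≤ a ∧ 10 ^ 6 * (1 + Real.log a) ≤ X

/-- The number of the letters of the balanced content. -/
def N0 (a w : ℕ) : ℕ := 16 * a + w / a

/-- **(TR11)** the lower bound, from all the above and `LowerS`, `TransS`, `TL.BalB`. -/
def LowC : Prop := ∀ (a b m X : ℕ) (lam : Fin (m + 1) → ℕ), HyT a b m X lam →
  ∃ dl : Fin m → ℕ, (∀ i, X * dl i ≤ tl lam i) ∧ Antitone dl ∧
    (Antitone fun i => tl lam i - dl i) ∧
    gt m (N0 a (dn lam 1)) (fun i => tl lam i - dl i) ≤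
      (N0 a (dn lam 1) + dn lam 1).choose (dn lam 1) * X ^ (9 * N0 a (dn lam 1)) *
        plethMult b a (m + 1) lam

/-- **(TR12)** the numbers. -/
def NumC : Prop := ∀ (a b m X : ℕ) (lam : Fin (m + 1) → ℕ), HyT a b m X lam →
  ∀ dl : Fin m → ℕ, (∀ i, X * dl i ≤ tl lam i) →
    ((∏ i, (a + dl i).choose (dl i) : ℕ) : ℝ) *
      (((N0 a (dn lam 1) + dn lam 1).choose (dn lam 1) * X ^ (9 * N0 a (dn lam 1)) : ℕ) : ℝ) ≤
    (∏ i, (1 + ((tl lam i - dl i : ℕ) : ℝ) / N0 a (dn lam 1))) ^ (N0 a (dn lam 1) - a)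

/-- **(TR13)** the main inequality, from `LowC`, `NumC`, `GtRow`. -/
def CoreT : Prop := ∀ (a b m X : ℕ) (lam : Fin (m + 1) → ℕ), HyT a b m X lam →
  plethMult a b (m + 1) lam ≤ plethMult b a (m + 1) lam

/-- **(TR14)** final form, from `CoreT` and `PolyS`. -/
def FinT : Prop := ∀ C₀ c₀ : ℝ, 0 < C₀ → 0 ≤ c₀ → ∃ C : ℝ, 0 < C ∧ ∀ (a b n : ℕ)
  (lam : Fin n → ℕ), Antitone lam → ∑ i, lam i = a * b → C * a ≤ b → 32 * dn lam 1 ≤ a * b →
  (a : ℝ) ^ 2 ≤ C₀ * (1 + Real.log a) ^ c₀ * dn lam 1 →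
  (dn lam 1 : ℝ) ≤ C₀ * (1 + Real.log a) ^ c₀ * dn lam 2 →
  plethMult a b n lam ≤ plethMult b a n lam

end Vale.Agent.P181.TRT
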